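import Mathlib.Analysis.InnerProductSpace.l2Space
import Mathlib.Analysis.InnerProductSpace.Adjoint
import Mathlib.Analysis.Complex.Circle
import Mathlib.Algebra.Star.StarProjection
import Mathlib.Algebra.Star.Subalgebra
import Mathlib.LinearAlgebra.Matrix.ConjTranspose

/-!
# P092: group von Neumann algebras, amplifications and canonical isomorphisms
-/

namespace Vale.Agent.N092

section

variable {Γ H : Type} [Group Γ] [NormedAddCommGroup H] [InnerProductSpace ℂ H] [CompleteSpace H]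

/-- `H` with its orthonormal basis `δ_x`, `x ∈ Γ`, is `ℓ²Γ`; the operators `u g` are the left regular
unitaries, `u_g δ_x = δ_{gx}`, and `M = {u_g}''` is the group von Neumann algebra `L(Γ)`. -/
def IsLG (δ : HilbertBasis Γ ℂ H) (M : StarSubalgebra ℂ (H →L[ℂ] H)) (u : Γ → M) : Prop :=
  (∀ g x, (u g).1 (δ x) = δ (g * x)) ∧
    (M : Set (H →L[ℂ] H)) = Set.centralizer (Set.centralizer (Set.range fun g => (u g).1))

/-- The trace `(Tr ⊗ τ)(p) = ∑ ⟨p_ii δ_e, δ_e⟩` of a matrix over `L(Γ)`. -/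
noncomputable def mtrace (δ : HilbertBasis Γ ℂ H) {M : StarSubalgebra ℂ (H →L[ℂ] H)} {n : ℕ}
    (p : Matrix (Fin n) (Fin n) M) : ℂ :=
  ∑ i, inner ℂ (δ 1) ((p i i).1 (δ 1))

end

section

variable {Γ Λ M N : Type} [Group Γ] [Group Λ] [Ring M] [StarRing M] [Algebra ℂ M] [Ring N]
  [StarRing N] [Algebra ℂ N]

/-- `N` is `*`-isomorphic to the corner `p M_n(M) p`. -/
def IsoCorner (N : Type) [Ring N] [StarRing N] [Algebra ℂ N] {n : ℕ}
    (p : Matrix (Fin n) (Fin n) M) : Prop :=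
  ∃ φ : N →⋆ₙₐ[ℂ] Matrix (Fin n) (Fin n) M, Function.Injective φ ∧ Set.range φ = {x | p * x * p = x}

/-- `θ` is canonical: `θ(u_g) = χ(g) w v_{δ(g)} w*` for a group isomorphism `δ`, a character `χ` and a
unitary `w`. -/
def Canonical (u : Γ → M) (v : Λ → N) (θ : M ≃⋆ₐ[ℂ] N) : Prop :=
  ∃ (δ : Γ ≃* Λ) (χ : Γ →* Circle) (w : N), w ∈ unitary N ∧
    ∀ g, θ (u g) = (χ g : ℂ) • (w * v (δ g) * star w)

/-- `Out(M) = Char(Γ) ⋊ Out(Γ)`: for each character `χ` and automorphism `α` of `Γ` there is an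
automorphism `Θ χ α` of `M` with `u_g ↦ χ(g) u_{α(g)}`, multiplicative for the law of the semidirect
product; every automorphism of `M` is one of these followed by an inner one; `Θ χ α` is inner if and
only if `χ` is trivial and `α` is inner. -/
def OutFormula (u : Γ → M) : Prop :=
  ∃ Θ : (Γ →* Circle) → (Γ ≃* Γ) → (M ≃⋆ₐ[ℂ] M), (∀ χ α g, Θ χ α (u g) = (χ g : ℂ) • u (α g)) ∧
    (∀ χ α ψ β x, Θ χ α (Θ ψ β x) = Θ (ψ * χ.comp β) (α * β) x) ∧
    (∀ θ : M ≃⋆ₐ[ℂ] M, ∃ χ α, ∃ w ∈ unitary M, ∀ x, θ x = w * Θ χ α x * star w) ∧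
    ∀ χ α, (∃ w ∈ unitary M, ∀ x, Θ χ α x = w * x * star w) ↔ χ = 1 ∧ ∃ h, α = MulAut.conj h

end

end Vale.Agent.N092
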