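import Vale.Agent.N092.Out
import Vale.Agent.P092GI.End
import Vale.Agent.P092L63.Haar
import Vale.Agent.P092L63.Loc

/-!
# P092: the final statement
-/

set_option linter.all false

open MeasureTheory

namespace Vale.Agent.N092

open Vale.Agent.P092 Vale.Agent.P092GV Vale.Agent.P092L63

theorem main
    (I : Type) [Fintype I] (G : I → Type) [∀ i, Group (G i)] [∀ i, TopologicalSpace (G i)]
    (hG : ∀ i, LocalPts (G i) ∧ ¬ CompactSpace (G i) ∧ UN.HasTC (G i))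
    [MeasurableSpace (∀ i, G i)] [BorelSpace (∀ i, G i)] (μ : Measure (∀ i, G i)) [μ.IsHaarMeasure]
    (Γ : Subgroup (∀ i, G i)) [DiscreteTopology Γ]
    (hΓ : ∃ F, IsFundamentalDomain Γ F μ ∧ μ F < ⊤)
    (icc : ∀ g : Γ, g ≠ 1 → (conjugatesOf g).Infinite) (Λ : Type) [Group Λ]
    (H : Type) [NormedAddCommGroup H] [InnerProductSpace ℂ H] [CompleteSpace H]
    (K : Type) [NormedAddCommGroup K] [InnerProductSpace ℂ K] [CompleteSpace K]
    (δ : HilbertBasis Γ ℂ H) (ε : HilbertBasis Λ ℂ K) :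
    (∀ M u N v, IsLG δ M u → IsLG ε N v →
      ∀ (n : ℕ) (p : Matrix (Fin n) (Fin n) M), IsStarProjection p → IsoCorner N p →
        mtrace δ p = 1 ∧ Nonempty (Λ ≃* Γ) ∧ ∀ θ : M ≃⋆ₐ[ℂ] N, Canonical u v θ) ∧
    (∀ M u, IsLG δ M u → OutFormula u) ∧ Finite (Γ →* Circle) ∧
    (∃ M u, IsLG δ M u) ∧ ∃ N v, IsLG ε N v := by
  have hs : ∀ i, SimplePts (G i) := fun i => pts_iff.1 (hG i).1
  obtain ⟨-, -, -, d⟩ := bridge I G fun i => ⟨hs i, (hG i).2.2⟩
  obtain ⟨F, hF, hfin⟩ := hΓ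
  obtain ⟨-, d⟩ := d μ inferInstance
  have hl : UN.IsLattice Γ := (d Γ).2.1
    ⟨inferInstance, ((d Γ).1 inferInstance).2.2 F (Or.inl hF) ▸ hfin⟩
  have hicc : UN.ICC Γ := fun g hg => (icc g hg).mono fun y hy => by
    obtain ⟨c, hc⟩ := isConj_iff.1 hy
    exact ⟨c, hc.symm⟩
  have hQ : Q1 Γ := P092GI.full I G (fun i => ⟨hs i, (hG i).2⟩) Γ hl hicc
  have h1 := fun i => (top_of_pts (hs i)).1
  have h2 := fun i => (top_of_pts (hs i)).2.1
  have h3 := fun i => (top_of_pts (hs i)).2.2.1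
  have h4 := fun i => (top_of_pts (hs i)).2.2.2
  have hT : UN.PropT Γ := H759.TL.propT_of_prod (fun i => UN.kazT_of_hasTC (hG i).2.2) Γ.subtype
    Subtype.val_injective (by rw [Subgroup.range_subtype]; exact hl)
  haveI := countable_of_propT hT
  refine ⟨fun M u N v hM hN n p hp h => rigid hicc hQ hM hN hp h,
    fun M u hM => out_formula hicc hQ hM, finite_char ?_, exists_LG δ, exists_LG ε⟩
  exact P092CQ.fin_commutator (hasT_of_propT hT) ⊤

end Vale.Agent.N092
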