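import Vale.Agent.N092.Rig

/-!
# P092: the outer automorphism group
-/

set_option linter.all false

open scoped InnerProductSpace
open Filter

namespace Vale.Agent.N092

open Vale.Agent.P092 Vale.Agent.P092.H160 Vale.Agent.P092GV

variable {Γ : Type} [Group Γ]

theorem iso_mul {A B : Type} [Ring A] [StarRing A] [Algebra ℂ A] [Ring B] [StarRing B]
    [Algebra ℂ B] (e : A ≃⋆ₐ[ℂ] B) (a b : A) : e (a * b) = e a * e b := map_mul e a b

theorem coef_eq (T : LG Γ) (g : Γ) :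
    (T : Ell2 Γ →L[ℂ] Ell2 Γ) (dl 1) g = tr (uu g⁻¹ * T) := by
  rw [tr_eq, inner_dl]
  change _ = lam g⁻¹ ((T : Ell2 Γ →L[ℂ] Ell2 Γ) (dl 1)) 1
  rw [lam_apply, inv_inv, mul_one]

/-- An automorphism which fixes the canonical unitaries is the identity. -/
theorem fix_std (hΓ : UN.ICC Γ) (θ : LG Γ ≃⋆ₐ[ℂ] LG Γ) (h : ∀ g, θ (uu g) = uu g) (T : LG Γ) :
    θ T = T := by
  refine Subtype.ext (sub_eq_zero.1 (H108.eq_zero_of_dl (sub_mem (θ T).2 T.2) ?_))
  rw [ContinuousLinearMap.sub_apply, sub_eq_zero]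
  refine ext_inner_dl fun g => ?_
  rw [coef_eq, coef_eq, ← H108.tr_iso hΓ θ (uu g⁻¹ * T), iso_mul, h]

theorem finite_level (ξ : Ell2 Γ) {c : ℝ} (hc : 0 < c) : {x | ‖ξ x‖ = c}.Finite := by
  have h2 := (summable_sq ξ).tendsto_cofinite_zero
  have h3 : ∀ᶠ g in cofinite, ‖ξ g‖ ^ 2 < c ^ 2 := h2.eventually (gt_mem_nhds (by positivity))
  rw [eventually_cofinite] at h3
  refine h3.subset fun g hg => ?_
  have : ‖ξ g‖ = c := hg
  simp only [Set.mem_setOf_eq, this, lt_self_iff_false, not_false_eq_true]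

theorem inner_std (hΓ : UN.ICC Γ) (χ : Γ →* Circle) (α : Γ ≃* Γ) (w : LG Γ) (hw : star w * w = 1)
    (h : ∀ g, (χ g : ℂ) • (uu (α g) : LG Γ) = w * uu g * star w) :
    χ = 1 ∧ ∃ k, α = MulAut.conj k := by
  set ξ : Ell2 Γ := (w : Ell2 Γ →L[ℂ] Ell2 Γ) (dl 1) with hξ
  have h1 : ∀ g y, ξ (α g * y * g⁻¹) = χ g * ξ y := fun g y => by
    have e : w * uu g = (χ g : ℂ) • (uu (α g) * w) := by
      rw [← smul_mul_assoc, h, mul_assoc (w * uu g), hw, mul_one]
    have e2 : (w : Ell2 Γ →L[ℂ] Ell2 Γ) (lam g (dl 1)) = (χ g : ℂ) • lam (α g) ξ :=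
      congrArg (fun T : LG Γ => (T : Ell2 Γ →L[ℂ] Ell2 Γ) (dl 1)) e
    rw [lam_dl, mul_one, H108.apply_dl w.2, ← hξ] at e2
    have e3 := congrArg (fun η : Ell2 Γ => η (α g * y)) e2
    simp only [H108.rho_apply, lp.coeFn_smul, Pi.smul_apply, lam_apply, inv_mul_cancel_left,
      smul_eq_mul] at e3
    exact e3
  obtain ⟨k, hk⟩ : ∃ k, ξ k ≠ 0 := by
    by_contra hc
    have h0 : ξ = 0 := eq_zero_of_inner_dl fun x => not_not.1 fun a => hc ⟨x, a⟩
    have h2 : w = 0 := Subtype.ext (H108.eq_zero_of_dl w.2 h0)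
    rw [h2, mul_zero] at hw
    have := congrArg tr hw
    rw [H108.tr_one] at this
    exact one_ne_zero (this.symm.trans (by simp [tr]))
  have hF := finite_level ξ (norm_pos_iff.2 hk)
  have hinv : ∀ g y, ‖ξ y‖ = ‖ξ k‖ → ‖ξ (α g * y * g⁻¹)‖ = ‖ξ k‖ := fun g y hy => by
    rw [h1, norm_mul, Circle.norm_coe, one_mul, hy]
  have h2 : ∀ g, α g * k * g⁻¹ = k := fun g => by
    by_contra hne
    refine hΓ (k⁻¹ * (α g * k * g⁻¹)) (fun e => hne (inv_mul_eq_one.1 e).symm) ?_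
    refine ((hF.prod hF).image fun q : Γ × Γ => q.1⁻¹ * q.2).subset ?_
    rintro _ ⟨s, rfl⟩
    refine ⟨(α s * k * s⁻¹, α s * (α g * k * g⁻¹) * s⁻¹), ⟨hinv s k rfl, hinv s _ (hinv g k rfl)⟩, ?_⟩
    simp only
    group
  refine ⟨MonoidHom.ext fun g => Subtype.ext ?_, k, MulEquiv.ext fun g => ?_⟩
  · have := h1 g k
    rw [h2] at this
    exact (mul_eq_right₀ hk).1 this.symm
  · rw [MulAut.conj_apply]
    calc α g = (α g * k * g⁻¹) * g * k⁻¹ := by group
      _ = k * g * k⁻¹ := by rw [h2]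

variable {H : Type} [NormedAddCommGroup H] [InnerProductSpace ℂ H] [CompleteSpace H]

section alg

variable {M : Type} [Ring M] [StarRing M] [Algebra ℂ M] [StarModule ℂ M] {u : Γ → M}

theorem out_alg (hΓ : UN.ICC Γ) (e : M ≃⋆ₐ[ℂ] LG Γ) (he : ∀ g, e (u g) = uu g)
    (hθ : ∀ (χ : Γ →* Circle) (α : Γ ≃* Γ), ∃ θ : M ≃⋆ₐ[ℂ] M, ∀ g, θ (u g) = (χ g : ℂ) • u (α g))
    (hc : ∀ θ : M ≃⋆ₐ[ℂ] M, Canonical u u θ) : OutFormula u := by
  have uniq : ∀ θ θ' : M ≃⋆ₐ[ℂ] M, (∀ g, θ (u g) = θ' (u g)) → ∀ x, θ x = θ' x := by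
    intro θ θ' h x
    have := fix_std hΓ (e.symm.trans (θ.trans (θ'.symm.trans e))) (fun g => by
      rw [← he]
      simp only [StarAlgEquiv.trans_apply, StarAlgEquiv.symm_apply_apply, h]) (e x)
    simp only [StarAlgEquiv.trans_apply, StarAlgEquiv.symm_apply_apply] at this
    have h2 : θ'.symm (θ x) = x := e.injective this
    rw [← θ'.apply_symm_apply (θ x), h2]
  choose Θ hΘ using hθ
  refine ⟨Θ, hΘ, fun χ α ψ β => uniq ((Θ ψ β).trans (Θ χ α)) _ fun g => ?_, fun θ => ?_,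
    fun χ α => ⟨?_, ?_⟩⟩
  · rw [StarAlgEquiv.trans_apply, hΘ, map_smul, hΘ, hΘ, smul_smul, MonoidHom.mul_apply,
      Circle.coe_mul]
    rfl
  · obtain ⟨α, χ, w, hw, h⟩ := hc θ
    refine ⟨χ, α, w, hw, uniq θ ((Θ χ α).trans (Unitary.conjStarAlgAut ℂ M ⟨w, hw⟩)) fun g => ?_⟩
    rw [h, StarAlgEquiv.trans_apply, hΘ, Unitary.conjStarAlgAut_apply, mul_smul_comm,
      smul_mul_assoc]
  · rintro ⟨w, hw, h⟩
    refine inner_std hΓ χ α (e w) ?_ fun g => ?_
    · rw [← iso_star, ← iso_mul, (Unitary.mem_iff.1 hw).1, map_one]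
    · rw [← he, ← he, ← iso_star, ← iso_mul, ← iso_mul, ← h, hΘ, map_smul]
  · rintro ⟨rfl, k, rfl⟩
    have hs : star (u k) = u k⁻¹ := e.injective (by
      change e (star (u k)) = e (u k⁻¹)
      rw [iso_star, he, he, star_uu])
    have hm : ∀ a b, u (a * b) = u a * u b := fun a b => e.injective (by
      change e (u (a * b)) = e (u a * u b)
      rw [iso_mul, he, he, he, uu_mul])
    have h1 : u 1 = 1 := e.injective (by
      change e (u 1) = e 1
      rw [he, uu_one, map_one])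
    have hw : u k ∈ unitary M := Unitary.mem_iff.2
      ⟨by rw [hs, ← hm, inv_mul_cancel, h1], by rw [hs, ← hm, mul_inv_cancel, h1]⟩
    refine ⟨u k, hw, uniq _ (Unitary.conjStarAlgAut ℂ M ⟨u k, hw⟩) fun g => ?_⟩
    rw [hΘ, Unitary.conjStarAlgAut_apply, MonoidHom.one_apply, Circle.coe_one, one_smul,
      MulAut.conj_apply, hm, hm, hs]

end alg

theorem isoCorner_one (M : Type) [Ring M] [StarRing M] [Algebra ℂ M] :
    IsoCorner M (1 : Matrix (Fin 1) (Fin 1) M) := by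
  refine ⟨{ toFun := fun x => Matrix.of fun _ _ => x
            map_smul' := fun _ _ => rfl
            map_zero' := rfl
            map_add' := fun _ _ => rfl
            map_mul' := fun x y => by
              ext i j
              simp [Matrix.mul_apply]
            map_star' := fun _ => rfl }, fun x y h => congrFun (congrFun h 0) 0, ?_⟩
  ext X
  simp only [Set.mem_range, Set.mem_setOf_eq, one_mul, mul_one, iff_true]
  refine ⟨X 0 0, ?_⟩
  ext i j
  rw [Subsingleton.elim i 0, Subsingleton.elim j 0]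
  rfl

theorem out_formula [Countable Γ] (hΓ : UN.ICC Γ) (hQ : Q1 Γ) {δ : HilbertBasis Γ ℂ H}
    {M : StarSubalgebra ℂ (H →L[ℂ] H)} {u : Γ → M} (hM : IsLG δ M u) : OutFormula u := by
  obtain ⟨e, he, -⟩ := hM.std
  exact out_alg hΓ e he hM.theta
    (rigid hΓ hQ hM hM (IsStarProjection.one _) (isoCorner_one M)).2.2

theorem finite_char (h : (commutator Γ).FiniteIndex) : Finite (Γ →* Circle) := by
  haveI : Finite (Abelianization Γ) := Subgroup.finite_quotient_of_finiteIndex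
  haveI : Finite (Abelianization Γ →* ℂˣ) := inferInstance
  refine Finite.of_injective (fun χ : Γ →* Circle =>
    Circle.toUnits.comp (Abelianization.lift χ)) fun χ ψ e => MonoidHom.ext fun g => ?_
  have := DFunLike.congr_fun e (Abelianization.of g)
  simp only [MonoidHom.comp_apply, Abelianization.lift_apply_of] at this
  exact Subtype.ext (congrArg Units.val this)

end Vale.Agent.N092
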