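import Vale.Agent.N092.Tr

/-!
# P092: rigidity for an arbitrary group `Λ`
-/

set_option linter.all false

open scoped InnerProductSpace

namespace Vale.Agent.N092

open Vale.Agent.P092 Vale.Agent.P092.H160 Vale.Agent.P092GV

theorem sep_of_basis {I K : Type} [Countable I] [NormedAddCommGroup K] [InnerProductSpace ℂ K]
    [CompleteSpace K] (b : HilbertBasis I ℂ K) : TopologicalSpace.SeparableSpace K := by
  have h1 : TopologicalSpace.IsSeparable (Set.range b) := (Set.countable_range b).isSeparable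
  have h2 := (h1.span (R := ℂ)).closure
  rw [← TopologicalSpace.isSeparable_univ_iff]
  refine h2.mono ?_
  rw [← Submodule.topologicalClosure_coe, b.dense_span]
  exact fun x _ => trivial

theorem countable_of_sep {Λ ι E : Type} [Fintype ι] [NormedAddCommGroup E]
    [TopologicalSpace.SeparableSpace E] (f : Λ → ι → E) {t : ℝ} (ht : 0 < t)
    (h : ∀ a b, a ≠ b → t ≤ ∑ i, ‖f a i - f b i‖ ^ 2) : Countable Λ := by
  obtain ⟨N, hN⟩ : ∃ N : ℝ, N = (Fintype.card ι : ℝ) := ⟨_, rfl⟩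
  have hN0 : 0 ≤ N := hN ▸ Nat.cast_nonneg _
  have hr : 0 < √(t / (N + 1)) := Real.sqrt_pos.2 (by positivity)
  refine Pairwise.countable_of_isOpen_disjoint (s := fun a => Metric.ball (f a) (√(t / (N + 1)) / 2))
    (fun a b hab => Metric.ball_disjoint_ball ?_) (fun _ => Metric.isOpen_ball)
    fun a => Metric.nonempty_ball.2 (by positivity)
  by_contra hc
  rw [not_le, add_halves, dist_pi_lt_iff hr] at hc
  have h1 : ∑ i, ‖f a i - f b i‖ ^ 2 ≤ ∑ _i : ι, t / (N + 1) := by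
    refine Finset.sum_le_sum fun i _ => ?_
    have := hc i
    rw [dist_eq_norm] at this
    calc ‖f a i - f b i‖ ^ 2 ≤ √(t / (N + 1)) ^ 2 := by gcongr
      _ = t / (N + 1) := Real.sq_sqrt (by positivity)
  rw [Finset.sum_const, Finset.card_univ, nsmul_eq_mul, ← hN] at h1
  have h2 : N * (t / (N + 1)) < t := by
    rw [← mul_div_assoc, div_lt_iff₀ (by positivity)]
    nlinarith
  linarith [h a b hab]

variable {Γ Λ : Type} [Group Γ] [Group Λ] {n : ℕ}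

theorem countable_of_corner [Countable Γ] (hΛ : UN.ICC Λ)
    {φ : LG Λ →⋆ₙₐ[ℂ] Matrix (Fin n) (Fin n) (LG Γ)} (h : H820.CornerIso φ) : Countable Λ := by
  obtain ⟨t, ht, ht1⟩ := H820.trace_pos h
  haveI : TopologicalSpace.SeparableSpace (Ell2 (Γ × Fin n)) :=
    sep_of_basis (default : HilbertBasis (Γ × Fin n) ℂ (Ell2 (Γ × Fin n)))
  refine countable_of_sep (fun a i => H820.opM (φ (uu a)) (H432.ep i : Ell2 (Γ × Fin n))) ht
    fun a b hab => ?_
  have e := H820.sum_norm_sq' hΛ h ht1 (uu a - uu b)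
  have e2 : H820.opM (φ (uu a - uu b)) = H820.opM (φ (uu a)) - H820.opM (φ (uu b)) := by
    rw [map_sub]
    exact map_sub (H820.opH Γ (Fin n)) _ _
  rw [e2] at e
  have e3 : ((uu a - uu b : LG Λ) : Ell2 Λ →L[ℂ] Ell2 Λ) (dl 1) = dl a - dl b := by
    change lam a (dl 1) - lam b (dl 1) = _
    rw [lam_dl, lam_dl, mul_one, mul_one]
  have e4 : 1 ≤ ‖(dl a - dl b : Ell2 Λ)‖ := by
    have := norm_coord_le (dl a - dl b : Ell2 Λ) a
    rwa [lp.coeFn_sub, Pi.sub_apply, dl_self, dl_ne hab, sub_zero, norm_one] at this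
  rw [e3] at e
  refine le_trans ?_ (le_of_eq e.symm)
  nlinarith [one_le_pow₀ e4 (n := 2)]

theorem iso_star {A B : Type} [Ring A] [StarRing A] [Algebra ℂ A] [Ring B] [StarRing B]
    [Algebra ℂ B] (e : A ≃⋆ₐ[ℂ] B) (a : A) : e (star a) = star (e a) := map_star e a

/-- The elementary form of an isomorphism. -/
theorem exists_starIso (θ : LG Γ ≃⋆ₐ[ℂ] LG Λ) :
    ∃ θ' : UN.StarIso Γ Λ, ∀ y : LG Γ, θ'.toFun y.1 = (θ y).1 := by
  obtain ⟨F, hF⟩ : ∃ F : UN.Op Γ → UN.Op Λ, ∀ y : LG Γ, F y.1 = (θ y).1 :=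
    ⟨Function.extend Subtype.val (fun y => (θ y).1) 0,
      fun y => Subtype.val_injective.extend_apply _ _ y⟩
  obtain ⟨I, hI⟩ : ∃ I : UN.Op Λ → UN.Op Γ, ∀ y : LG Λ, I y.1 = (θ.symm y).1 :=
    ⟨Function.extend Subtype.val (fun y => (θ.symm y).1) 0,
      fun y => Subtype.val_injective.extend_apply _ _ y⟩
  refine ⟨⟨F, I, fun T h => ?_, fun X h => ?_, fun T h => ?_, fun X h => ?_, fun S T a b => ?_,
    fun c S T a b e => ?_, fun S T a b => ?_, fun S T a b e => ?_⟩, hF⟩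
  · obtain ⟨T, rfl⟩ := lift h
    rw [hF]
    exact inL.2 (θ T).2
  · obtain ⟨T, rfl⟩ := lift h
    rw [hI]
    exact inL.2 (θ.symm T).2
  · obtain ⟨T, rfl⟩ := lift h
    rw [hF, hI, StarAlgEquiv.symm_apply_apply]
  · obtain ⟨T, rfl⟩ := lift h
    rw [hI, hF, StarAlgEquiv.apply_symm_apply]
  · obtain ⟨S, rfl⟩ := lift a
    obtain ⟨T, rfl⟩ := lift b
    rw [hF, hF]
    exact (hF (S + T)).trans (congrArg Subtype.val (map_add θ S T))
  · obtain ⟨S, rfl⟩ := lift a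
    obtain ⟨T, rfl⟩ := lift b
    obtain rfl : T = c • S := Subtype.ext (isSmul.1 e)
    rw [hF, hF, map_smul]
    exact isSmul.2 rfl
  · obtain ⟨S, rfl⟩ := lift a
    obtain ⟨T, rfl⟩ := lift b
    rw [hF, hF]
    exact (hF (S * T)).trans (congrArg Subtype.val (map_mul θ S T))
  · obtain ⟨S, rfl⟩ := lift a
    obtain ⟨T, rfl⟩ := lift b
    obtain rfl : T = star S := Subtype.ext (isAdj.1 e)
    rw [hF, hF, iso_star]
    exact isAdj.2 rfl

theorem canon_of (θ : LG Γ ≃⋆ₐ[ℂ] LG Λ) (h : ∀ θ' : UN.StarIso Γ Λ, UN.Canonical θ') :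
    Canonical (uu : Γ → LG Γ) (uu : Λ → LG Λ) θ := by
  obtain ⟨θ', hθ⟩ := exists_starIso θ
  obtain ⟨δ, χ, w, w', h1, h2, h3, h4, h5⟩ := h θ'
  obtain ⟨w, rfl⟩ := lift h1
  obtain rfl := isAdj.1 h2
  refine ⟨δ, χ, w, Unitary.mem_iff.2 ⟨Subtype.ext (h4.trans u_one), Subtype.ext (h3.trans u_one)⟩,
    fun g => Subtype.ext ?_⟩
  have e := isSmul.1 (h5 g)
  rw [UN.u_eq, UN.u_eq] at e
  exact (hθ (uu g)).symm.trans e

theorem rigid_std [Countable Γ] (hΓ : UN.ICC Γ) (hQ : Q1 Γ)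
    {φ : LG Λ →⋆ₙₐ[ℂ] Matrix (Fin n) (Fin n) (LG Γ)} (h : H820.CornerIso φ) :
    ∑ i, tr (φ 1 i i) = 1 ∧ Nonempty (Λ ≃* Γ) ∧
      ∀ θ : LG Γ ≃⋆ₐ[ℂ] LG Λ, Canonical (uu : Γ → LG Γ) (uu : Λ → LG Λ) θ := by
  have hΛ : UN.ICC Λ := H820.icc_of_corner hΓ h
  haveI := countable_of_corner hΛ h
  obtain ⟨a, b, c⟩ := hQ Λ hΛ n _ (proj_el φ) (corner_el φ h.inj h.surj)
  refine ⟨?_, b, fun θ => canon_of θ c⟩
  rw [← a, UN.mtr_eq]
  rfl

section alg

variable {M M' N N' : Type} [Ring M] [StarRing M] [Algebra ℂ M] [Ring M'] [StarRing M']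
  [Algebra ℂ M'] [Ring N] [StarRing N] [Algebra ℂ N] [Ring N'] [StarRing N'] [Algebra ℂ N']

theorem corner_tr (e : M ≃⋆ₐ[ℂ] M') (f : N ≃⋆ₐ[ℂ] N') {p : Matrix (Fin n) (Fin n) M}
    (hp : IsStarProjection p) (h : IsoCorner N p) :
    ∃ ψ : N' →⋆ₙₐ[ℂ] Matrix (Fin n) (Fin n) M', Function.Injective ψ ∧
      (∀ x, ψ 1 * x * ψ 1 = x → ∃ y, ψ y = x) ∧ ∀ i j, ψ 1 i j = e (p i j) := by
  obtain ⟨φ, h1, h2⟩ := h
  have hpp : p * p = p := hp.isIdempotentElem
  have hφ : φ 1 = p := by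
    obtain ⟨y, hy⟩ : p ∈ Set.range φ := by
      rw [h2]
      change p * p * p = p
      rw [hpp, hpp]
    have a : p * φ 1 * p = φ 1 := by
      have : φ 1 ∈ Set.range φ := ⟨1, rfl⟩
      rwa [h2] at this
    rw [← a, mul_assoc, ← hy, ← map_mul, one_mul, hy, hpp]
  have hmul : ∀ X Y : Matrix (Fin n) (Fin n) M, (X * Y).map e = X.map e * Y.map e := fun X Y => by
    ext i j
    simp only [Matrix.map_apply, Matrix.mul_apply, map_sum, map_mul]
  have hinj : ∀ X Y : Matrix (Fin n) (Fin n) M, X.map e = Y.map e → X = Y := fun X Y h =>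
    Matrix.ext fun i j => e.injective (congrFun (congrFun h i) j)
  let ψ : N' →⋆ₙₐ[ℂ] Matrix (Fin n) (Fin n) M' :=
    { toFun := fun y => (φ (f.symm y)).map e
      map_smul' := fun c y => by
        ext i j
        simp only [map_smul, Matrix.map_apply, Matrix.smul_apply, MonoidHom.id_apply]
      map_zero' := by
        ext i j
        simp only [map_zero, Matrix.map_apply, Matrix.zero_apply]
      map_add' := fun x y => by
        ext i j
        simp only [map_add, Matrix.map_apply, Matrix.add_apply]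
      map_mul' := fun x y => by rw [map_mul, map_mul, hmul]
      map_star' := fun x => by
        ext i j
        simp only [map_star, Matrix.map_apply, Matrix.star_apply] }
  have hψ : ∀ y, ψ y = (φ (f.symm y)).map e := fun _ => rfl
  have h3 : ψ 1 = p.map e := by rw [hψ, map_one, hφ]
  refine ⟨ψ, fun x y a => f.symm.injective (h1 (hinj _ _ a)), fun x hx => ?_, fun i j => by
    rw [h3]; rfl⟩
  obtain ⟨X, rfl⟩ : ∃ X : Matrix (Fin n) (Fin n) M, X.map e = x :=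
    ⟨x.map e.symm, Matrix.ext fun i j => e.apply_symm_apply _⟩
  rw [h3, ← hmul, ← hmul] at hx
  obtain ⟨y, hy⟩ : X ∈ Set.range φ := by
    rw [h2]
    exact hinj _ _ hx
  exact ⟨f y, by rw [hψ, f.symm_apply_apply, hy]⟩

theorem canon_tr (e : M ≃⋆ₐ[ℂ] M') (f : N ≃⋆ₐ[ℂ] N') {u : Γ → M} {u' : Γ → M'} {v : Λ → N}
    {v' : Λ → N'} (he : ∀ g, e (u g) = u' g) (hf : ∀ g, f (v g) = v' g) (θ : M ≃⋆ₐ[ℂ] N)
    (h : Canonical u' v' (e.symm.trans (θ.trans f))) : Canonical u v θ := by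
  obtain ⟨δ, χ, w, hw, h⟩ := h
  obtain ⟨h1, h2⟩ := Unitary.mem_iff.1 hw
  refine ⟨δ, χ, f.symm w, Unitary.mem_iff.2 ⟨?_, ?_⟩, fun g => f.injective ?_⟩
  · rw [← map_star, ← map_mul, h1, map_one]
  · rw [← map_star, ← map_mul, h2, map_one]
  · have := h g
    rw [← he, StarAlgEquiv.trans_apply, StarAlgEquiv.trans_apply, e.symm_apply_apply] at this
    change f (θ (u g)) = f _
    rw [this, map_smul, map_mul, map_mul, map_star, f.apply_symm_apply, hf]

end alg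

variable {H K : Type} [NormedAddCommGroup H] [InnerProductSpace ℂ H] [CompleteSpace H]
  [NormedAddCommGroup K] [InnerProductSpace ℂ K] [CompleteSpace K]

theorem rigid [Countable Γ] (hΓ : UN.ICC Γ) (hQ : Q1 Γ) {δ : HilbertBasis Γ ℂ H}
    {M : StarSubalgebra ℂ (H →L[ℂ] H)} {u : Γ → M} (hM : IsLG δ M u) {ε : HilbertBasis Λ ℂ K}
    {N : StarSubalgebra ℂ (K →L[ℂ] K)} {v : Λ → N} (hN : IsLG ε N v)
    {p : Matrix (Fin n) (Fin n) M} (hp : IsStarProjection p) (h : IsoCorner N p) :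
    mtrace δ p = 1 ∧ Nonempty (Λ ≃* Γ) ∧ ∀ θ : M ≃⋆ₐ[ℂ] N, Canonical u v θ := by
  obtain ⟨e, he, ht⟩ := hM.std
  obtain ⟨f, hf, -⟩ := hN.std
  obtain ⟨ψ, h1, h2, h3⟩ := corner_tr e f hp h
  obtain ⟨a, b, c⟩ := rigid_std hΓ hQ (φ := ψ) ⟨h1, h2⟩
  refine ⟨?_, b, fun θ => canon_tr e f he hf θ (c _)⟩
  rw [← a, mtrace]
  exact Finset.sum_congr rfl fun i _ => by rw [h3, ht]

end Vale.Agent.N092
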