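import Vale.Agent.N092.Defs
import Vale.Agent.P092GV.Lit

/-!
# P092: transfer to the standard model
-/

set_option linter.all false

open scoped InnerProductSpace

namespace Vale.Agent.N092

open Vale.Agent.P092 Vale.Agent.P092.H160

variable {Γ H : Type} [Group Γ] [NormedAddCommGroup H] [InnerProductSpace ℂ H] [CompleteSpace H]

theorem repr_b (δ : HilbertBasis Γ ℂ H) (x : Γ) : δ.repr (δ x) = dl x := by
  classical
  rw [δ.repr_self, dl]

theorem symm_dl (δ : HilbertBasis Γ ℂ H) (x : Γ) : δ.repr.symm (dl x) = δ x := by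
  rw [← repr_b δ, LinearIsometryEquiv.symm_apply_apply]

theorem mem_LG_cent {T : Ell2 Γ →L[ℂ] Ell2 Γ} :
    T ∈ LG Γ ↔ T ∈ Set.centralizer (Set.centralizer (Set.range (lam (G := Γ)))) := by
  rw [← inL_iff]
  constructor
  · intro h S hS
    exact (h S fun g => (hS _ ⟨g, rfl⟩).symm).symm
  · intro h S hS
    refine (h S ?_).symm
    rintro _ ⟨g, rfl⟩
    exact (hS g).symm

theorem cent_equiv {A B : Type} [Mul A] [Mul B] (e : A ≃* B) (S : Set A) (x : A) :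
    e x ∈ Set.centralizer (e '' S) ↔ x ∈ Set.centralizer S := by
  constructor
  · intro h y hy
    exact e.injective (by rw [map_mul, map_mul]; exact h _ ⟨y, hy, rfl⟩)
  · rintro h _ ⟨y, hy, rfl⟩
    rw [← map_mul, ← map_mul, h y hy]

theorem cent_image {A B : Type} [Mul A] [Mul B] (e : A ≃* B) (S : Set A) :
    Set.centralizer (e '' S) = e '' Set.centralizer S := by
  ext y
  obtain ⟨x, rfl⟩ := e.surjective y
  rw [cent_equiv, e.injective.mem_set_image]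

/-- Conjugation by the coordinate isometry. -/
noncomputable def cj (δ : HilbertBasis Γ ℂ H) : (H →L[ℂ] H) ≃⋆ₐ[ℂ] (Ell2 Γ →L[ℂ] Ell2 Γ) :=
  δ.repr.conjStarAlgEquiv

/-- An isomorphism as a homomorphism. -/
def toH {A B : Type} [Ring A] [StarRing A] [Algebra ℂ A] [Ring B] [StarRing B] [Algebra ℂ B]
    (e : A ≃⋆ₐ[ℂ] B) : A →⋆ₐ[ℂ] B := e

/-- The same as a homomorphism. -/
noncomputable def cjH (δ : HilbertBasis Γ ℂ H) : (H →L[ℂ] H) →⋆ₐ[ℂ] (Ell2 Γ →L[ℂ] Ell2 Γ) :=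
  toH (cj δ)

theorem cj_dl (δ : HilbertBasis Γ ℂ H) (T : H →L[ℂ] H) (x : Γ) :
    cj δ T (dl x) = δ.repr (T (δ x)) := by
  rw [← symm_dl]
  rfl

theorem mem_iff (δ : HilbertBasis Γ ℂ H) {U : Γ → (H →L[ℂ] H)} (hU : ∀ g, cj δ (U g) = lam g)
    (T : H →L[ℂ] H) :
    cj δ T ∈ LG Γ ↔ T ∈ Set.centralizer (Set.centralizer (Set.range U)) := by
  have : Set.range (lam (G := Γ)) = (cj δ).toMulEquiv '' Set.range U := by
    rw [← Set.range_comp]
    congr 1
    funext g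
    exact (hU g).symm
  rw [mem_LG_cent, this, cent_image]
  exact cent_equiv (cj δ).toMulEquiv _ T

theorem exists_LG (δ : HilbertBasis Γ ℂ H) : ∃ M u, IsLG δ M u := by
  have hU : ∀ g : Γ, cj δ ((cj δ).symm (lam g)) = lam g := fun g => (cj δ).apply_symm_apply _
  refine ⟨(LG Γ).comap (cjH δ),
    fun g => ⟨(cj δ).symm (lam g), ?_⟩, fun g x => ?_, Set.ext fun T => mem_iff δ hU T⟩
  · change cj δ ((cj δ).symm (lam g)) ∈ LG Γ
    rw [hU]
    exact lam_mem_LG g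
  · apply δ.repr.injective
    rw [← cj_dl, repr_b]
    change cj δ ((cj δ).symm (lam g)) (dl x) = _
    rw [hU, lam_dl]

theorem IsLG.std {δ : HilbertBasis Γ ℂ H} {M : StarSubalgebra ℂ (H →L[ℂ] H)} {u : Γ → M}
    (h : IsLG δ M u) : ∃ e : M ≃⋆ₐ[ℂ] LG Γ, (∀ g, e (u g) = uu g) ∧
      ∀ a : M, tr (e a) = ⟪δ 1, a.1 (δ 1)⟫_ℂ := by
  have hU : ∀ g, cj δ (u g).1 = lam g := fun g => op_ext fun x => by
    rw [cj_dl, h.1, repr_b, lam_dl]
  have hm : ∀ T, cj δ T ∈ LG Γ ↔ T ∈ M := fun T => by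
    rw [mem_iff δ hU, ← h.2]
    rfl
  let f : M →⋆ₐ[ℂ] LG Γ :=
    ((cjH δ).comp M.subtype).codRestrict _
      fun a => (hm a.1).2 a.2
  have hf : ∀ a : M, (f a).1 = cj δ a.1 := fun _ => rfl
  have hb : Function.Bijective f := by
    refine ⟨fun a b e => Subtype.ext ((cj δ).injective ?_), fun T => ?_⟩
    · exact congrArg Subtype.val e
    · refine ⟨⟨(cj δ).symm T.1, (hm _).1 ?_⟩, Subtype.ext ?_⟩
      · rw [StarAlgEquiv.apply_symm_apply]
        exact T.2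
      · rw [hf, StarAlgEquiv.apply_symm_apply]
  refine ⟨StarAlgEquiv.ofBijective f hb, fun g => Subtype.ext (hU g), fun a => ?_⟩
  change ⟪(dl 1 : Ell2 Γ), cj δ a.1 (dl 1)⟫_ℂ = _
  rw [cj_dl, ← repr_b δ, LinearIsometryEquiv.inner_map_map]

/-- The twisted basis and unitaries. -/
theorem IsLG.twist {δ : HilbertBasis Γ ℂ H} {M : StarSubalgebra ℂ (H →L[ℂ] H)} {u : Γ → M}
    (h : IsLG δ M u) (χ : Γ →* Circle) (α : Γ ≃* Γ) :
    ∃ δ' : HilbertBasis Γ ℂ H, IsLG δ' M fun g => (χ g : ℂ) • u (α g) := by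
  have ho : Orthonormal ℂ fun x => (χ x : ℂ) • δ (α x) := by
    refine ⟨fun x => ?_, fun x y hxy => ?_⟩
    · rw [norm_smul, Circle.norm_coe, δ.orthonormal.1, one_mul]
    · change ⟪(χ x : ℂ) • δ (α x), (χ y : ℂ) • δ (α y)⟫_ℂ = 0
      rw [inner_smul_left, inner_smul_right, δ.orthonormal.2 (α.injective.ne hxy), mul_zero,
        mul_zero]
  have hsp : ⊤ ≤ (Submodule.span ℂ (Set.range fun x => (χ x : ℂ) • δ (α x))).topologicalClosure := by
    rw [← δ.dense_span]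
    refine Submodule.topologicalClosure_mono (Submodule.span_le.2 ?_)
    rintro _ ⟨x, rfl⟩
    obtain ⟨y, rfl⟩ := α.surjective x
    have : δ (α y) = (χ y : ℂ)⁻¹ • (χ y : ℂ) • δ (α y) := by
      rw [smul_smul, inv_mul_cancel₀ (χ y).coe_ne_zero, one_smul]
    rw [this]
    exact Submodule.smul_mem _ _ (Submodule.subset_span ⟨y, rfl⟩)
  refine ⟨HilbertBasis.mk ho hsp, fun g x => ?_, h.2.trans ?_⟩
  · rw [HilbertBasis.coe_mk]
    change (χ g : ℂ) • (u (α g)).1 ((χ x : ℂ) • δ (α x)) = (χ (g * x) : ℂ) • δ (α (g * x))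
    rw [map_smul, h.1, smul_smul, map_mul χ, map_mul α, Circle.coe_mul]
  · congr 1
    ext S
    constructor
    · rintro hS _ ⟨g, rfl⟩
      change ((χ g : ℂ) • (u (α g)).1) * S = S * ((χ g : ℂ) • (u (α g)).1)
      rw [smul_mul_assoc, mul_smul_comm, hS _ ⟨α g, rfl⟩]
    · rintro hS _ ⟨g, rfl⟩
      obtain ⟨g, rfl⟩ := α.surjective g
      have : ((χ g : ℂ) • (u (α g)).1) * S = S * ((χ g : ℂ) • (u (α g)).1) := hS _ ⟨g, rfl⟩
      rw [smul_mul_assoc, mul_smul_comm] at this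
      exact smul_right_injective _ (χ g).coe_ne_zero this

theorem IsLG.theta {δ : HilbertBasis Γ ℂ H} {M : StarSubalgebra ℂ (H →L[ℂ] H)} {u : Γ → M}
    (h : IsLG δ M u) (χ : Γ →* Circle) (α : Γ ≃* Γ) :
    ∃ θ : M ≃⋆ₐ[ℂ] M, ∀ g, θ (u g) = (χ g : ℂ) • u (α g) := by
  obtain ⟨δ', h'⟩ := h.twist χ α
  obtain ⟨e, he, -⟩ := h.std
  obtain ⟨e', he', -⟩ := h'.std
  refine ⟨e.trans e'.symm, fun g => ?_⟩
  rw [StarAlgEquiv.trans_apply, he, ← he', StarAlgEquiv.symm_apply_apply]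

end Vale.Agent.N092
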